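import Vale.Agent.P154.Pois.DE.Data.Sl4.Tab0

/-!
# Phase 0 is valid
-/

namespace Vale.P154.PD.Data.Sl4

open Vale.P154.Lat Vale.P154.PD

theorem par0_ok : pparOk par0 = true := by decide +kernel

theorem coef0_ok : pcoefOk par0 = true := by decide +kernel

theorem edgeTab0_ok : tall (pedgeOk par0) par0.dE 0 edgeTab0 = true := by decide +kernel

theorem nodeTab0_ok : tall (pleafOk par0) par0.dN 0 nodeTab0 = true := by decide +kernel

end Vale.P154.PD.Data.Sl4
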