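import Vale.Agent.P154.Pois.DE.Data.Sl4.Tab1

/-!
# Phase 1 is valid
-/

namespace Vale.P154.PD.Data.Sl4

open Vale.P154.Lat Vale.P154.PD

theorem par1_ok : pparOk par1 = true := by decide +kernel

theorem coef1_ok : pcoefOk par1 = true := by decide +kernel

theorem edgeTab1_ok : tall (pedgeOk par1) par1.dE 0 edgeTab1 = true := by decide +kernel

theorem nodeTab1_ok : tall (pleafOk par1) par1.dN 0 nodeTab1 = true := by decide +kernel

end Vale.P154.PD.Data.Sl4
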