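import Vale.Agent.P154.Pois.DE.Data.Sl4.Tab0

/-!
# Generations 0 to 4
-/

namespace Vale.P154.PD.Data.Sl4

open Vale.P154.Lat Vale.P154.PD

/-- The start of segment 0. -/
def start0 : Nat × Nat := (28219348257537798591255517873682876723705318509930390216300945290066774031170559184933967056862961600639717668251484768284774812487976976135704746127466305790319147557152599357670040927284861230257111124117912429731200241709356783285782295472170425619329831111039873176313832137359014074333650954805699917184674006596291752099840, 0)

/-- A law in segment 0. -/
def mid0_1 : Nat × Nat := (10253334805357531249855031487196479282051128098977177256766488846992809756602843113903467469598846458616674232108584677148370596112833179401718528945696618218209951754151839293980562630158876352899784325132274323198563480031053906809520135629261508506011548306173165777901924220311668200046035588488488103404957171034240589629674, 0)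

/-- A law in segment 0. -/
def mid0_2 : Nat × Nat := (4583349159078882102719067276288261783718511243956148467049188222710597959763760976202636642973895164642917243600792825110409947938130178156785552835898635735781701138496233608396061113055973502378584707012125563191725816111703227087714998426672113058243321335699375556412337831869332553109231334773945011657826090930901958808461, 0)

/-- A law in segment 0. -/
def mid0_3 : Nat × Nat := (2303298412839497038008699513946837742563032893278758494549385183267991574574348264445543223782596184850443492590520488504065621806355549637219194782384119945858953435926152584730905476898804043472109172201344132580173029982765512480566204841852198340945821298713460120719157254391980922297786315910154132068672821276988707625194, 0)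

/-- A law in segment 0. -/
def fin0 : Nat × Nat := (1238182681241992271851977603643577600112924175911913581317507115792192942074578981152504535789039477221839693024209816344823195082892481325476851161345850267325315256694070719021359886862350475002729219658737955717193941773445785233139939289823253888321411511809312041871178803122061228342639641521565935801490568429899295408470, 0)

theorem start_ok : pstartOk par0 start0.1 start0.2 = true := by decide +kernel

theorem step0_0 : pstepOk par0 nodeTab0 edgeTab0 start0.1 start0.2
    mid0_1.1 mid0_1.2 = true := by decide +kernel

theorem step0_1 : pstepOk par0 nodeTab0 edgeTab0 mid0_1.1 mid0_1.2
    mid0_2.1 mid0_2.2 = true := by decide +kernel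

theorem step0_2 : pstepOk par0 nodeTab0 edgeTab0 mid0_2.1 mid0_2.2
    mid0_3.1 mid0_3.2 = true := by decide +kernel

theorem step0_3 : pstepOk par0 nodeTab0 edgeTab0 mid0_3.1 mid0_3.2
    fin0.1 fin0.2 = true := by decide +kernel


end Vale.P154.PD.Data.Sl4
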