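import Vale.Agent.P154.Pois.DE.Data.Sl4.Tab0

/-!
# Generations 4 to 8
-/

namespace Vale.P154.PD.Data.Sl4

open Vale.P154.Lat Vale.P154.PD

/-- The start of segment 1. -/
def start1 : Nat × Nat := (1238182681241992271851977603643577600112924175911913581317507115792192942074578981152504535789039477221839693024209816344823195082892481325476851161345850267325315256694070719021359886862350475002729219658737955717193941773445785233139939289823253888321411511809312041871178803122061228342639641521565935801490568429899295408470, 0)

/-- A law in segment 1. -/
def mid1_1 : Nat × Nat := (701601518604881595171529687449123973772920646380160149406514145490082833508600441485584769121827144588929251222981741665225588672359090330793546531150898936315935490622321968188906086067320544321368647826567735192384021448539552237831505559716199815649627833726042667309376678688699251343981357740973673167440895058607705959987, 0)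

/-- A law in segment 1. -/
def mid1_2 : Nat × Nat := (416389858285096627667608229322499234347148331990478535903653372274384563286237973454372881910293251274080536376803549566079390507687502774483488986644585842841129017721874170634684625301065042120135350861850958469715963290692910087850483938122552482298482452597149811621999095779958094146365201278973481964108861118914344293310, 0)

/-- A law in segment 1. -/
def mid1_3 : Nat × Nat := (257869878020392392017259819832511216293325886840839367461180055595801270227723816185158747744282960371621613272728124804946799342629492706752125923376245017001008469778990393263209546536328956453026620180750772106824734360142706311467475147082190288513426173636459295542336321302926380485248115834025135896694945886252071034659, 0)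

/-- A law in segment 1. -/
def fin1 : Nat × Nat := (166222764053057024817556337226055494285328942149607211184026973330752582033136689472337533341049688363258294507376091517034585723775649154839042023145767556329996018199584307337101264314910960194485162190381298044219464078450351883744527795492538923554494233624588516619944020207517142747865309579311355194164968358591881723886, 0)

theorem step1_0 : pstepOk par0 nodeTab0 edgeTab0 start1.1 start1.2
    mid1_1.1 mid1_1.2 = true := by decide +kernel

theorem step1_1 : pstepOk par0 nodeTab0 edgeTab0 mid1_1.1 mid1_1.2
    mid1_2.1 mid1_2.2 = true := by decide +kernel

theorem step1_2 : pstepOk par0 nodeTab0 edgeTab0 mid1_2.1 mid1_2.2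
    mid1_3.1 mid1_3.2 = true := by decide +kernel

theorem step1_3 : pstepOk par0 nodeTab0 edgeTab0 mid1_3.1 mid1_3.2
    fin1.1 fin1.2 = true := by decide +kernel


end Vale.P154.PD.Data.Sl4
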