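import Vale.Agent.P154.Pois.DE.Data.Sl4.Tab1

/-!
# Generations 58 to 59
-/

namespace Vale.P154.PD.Data.Sl4

open Vale.P154.Lat Vale.P154.PD

/-- The start of segment 16. -/
def start16 : Nat × Nat := (74775723790798399673741383560192399898002591469733752840231071042607388019331702034866323139431968482400002132374246888205080458073803673841504607722105397580925677432894095017798924468127671973309809474485436493459058732950559881776453801588161137796920372674212145557912283912209853293359062869520342492314133635884759376056510232225742586202075231141020235479900603023893450841206315422466361712090829453477780433960937597600580389065354028729620002623384798333261440805663525987371340581141635489438876437613851722384022086149231483808107107335291845023061852385409508621884905889463218806611010068709799726786257580882775023232421876273136527106459365088174707190955468302089931880384252084697480690445627825810467555235842613243497889519823266081284931115322790647397262246740820087296842165990668173417182174263218189061607824809909558347016558810450717534600656587421205506142814599302414719639763071813783427596016545031254873366501484713685340974514095843015616682622539111140523206182365475265949722381345332738990955532682195283, 0)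

/-- A law in segment 16. -/
def fin16 : Nat × Nat := (74465006540509989743745609836338592164290323590388310145099573836116732824668505808535979320657432354609751038070990412092298343459198253041116676176911850301497136664179432721342185230401730314511913644220133571092044472848477377050693989200091396128337043634849359052649531153601694489123432894464128592747879927203155846122384703137008051461685245559970848864786839916900545752690503634446289007996132863946564164897616049478083725019904262420580296581148988044602431329481505920851508845097697152951168906108034289568480961663659267185492068319641046214113595794764946663110668265871596585874829549610480258614408126330653487767346939963947403401854419566871840507714764806211340542056510288346595077747994884468380477498090787420922451082890900393320293445145496582855732097343263575758326352957324418253698393352427913806468900031341522783513004257714796327898340073944297239254639634519375913619392821639957573296460463162114152165432207526556743091794266147587430055239956756545579775324778106522394962402354233365972902034101677263, 0)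

theorem step16_0 : pstepOk par1 nodeTab1 edgeTab1 start16.1 start16.2
    fin16.1 fin16.2 = true := by decide +kernel

theorem fin_ok : pfinOk par1 285 1000 fin16.1 fin16.2 = true := by decide +kernel

end Vale.P154.PD.Data.Sl4
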