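import Vale.Agent.P154.Pois.DE.Data.Sl4.Tab0

/-!
# Generations 8 to 12
-/

namespace Vale.P154.PD.Data.Sl4

open Vale.P154.Lat Vale.P154.PD

/-- The start of segment 2. -/
def start2 : Nat × Nat := (166222764053057024817556337226055494285328942149607211184026973330752582033136689472337533341049688363258294507376091517034585723775649154839042023145767556329996018199584307337101264314910960194485162190381298044219464078450351883744527795492538923554494233624588516619944020207517142747865309579311355194164968358591881723886, 0)

/-- A law in segment 2. -/
def mid2_1 : Nat × Nat := (111324885963012005325511219561523600567716395887362209580584751125167811429699416690383328595329098915429633919500333755997082661129498852535845274890384966852732655476197892230713912779247069661833123928682921045168878815989372600115048259952311188245401615866410955171040225548604222622053924411005710413234009617257153688516, 0)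

/-- A law in segment 2. -/
def mid2_2 : Nat × Nat := (77360335686116745774781027973255447786015291262477605170445536008926189937948615545393009264435824502925901873867883638791921829186897339562704403384139219463588147018091108759477438813884944464729896578575626728200678089843670740818823456954817165939038476405145667060080257393029206306348784181580710580756401717710636288975, 0)

/-- A law in segment 2. -/
def mid2_3 : Nat × Nat := (55717881158198377286212204556796916040143633299530798243812023795227677605606959362368845651761453367460807846341463763116864881921019684491766681669876801525919789782933493313334088796182767105000101104416513493586953130084157008293202069217235162350864882126174776514537970713574620848519959040727762160312265598690762698511, 0)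

/-- A law in segment 2. -/
def fin2 : Nat × Nat := (41547139196867045709689283598670945371905887897882639967935838551903155804724202190388719676962773833178507863851317922384150907446421373900735385689007012664653444451776320935514381902737112480367746314238635089328738551562899314299516489254405858477813630372813271674268132341133191131769974036556284472282870102740416037730, 0)

theorem step2_0 : pstepOk par0 nodeTab0 edgeTab0 start2.1 start2.2
    mid2_1.1 mid2_1.2 = true := by decide +kernel

theorem step2_1 : pstepOk par0 nodeTab0 edgeTab0 mid2_1.1 mid2_1.2
    mid2_2.1 mid2_2.2 = true := by decide +kernel

theorem step2_2 : pstepOk par0 nodeTab0 edgeTab0 mid2_2.1 mid2_2.2
    mid2_3.1 mid2_3.2 = true := by decide +kernel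

theorem step2_3 : pstepOk par0 nodeTab0 edgeTab0 mid2_3.1 mid2_3.2
    fin2.1 fin2.2 = true := by decide +kernel


end Vale.P154.PD.Data.Sl4
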