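import Vale.Agent.P154.Pois.DE.Data.Sl4.Tab0

/-!
# Generations 12 to 16
-/

namespace Vale.P154.PD.Data.Sl4

open Vale.P154.Lat Vale.P154.PD

/-- The start of segment 3. -/
def start3 : Nat × Nat := (41547139196867045709689283598670945371905887897882639967935838551903155804724202190388719676962773833178507863851317922384150907446421373900735385689007012664653444451776320935514381902737112480367746314238635089328738551562899314299516489254405858477813630372813271674268132341133191131769974036556284472282870102740416037730, 0)

/-- A law in segment 3. -/
def mid3_1 : Nat × Nat := (32031881464703862462180473432673782324945585434685109055336094365812955288247227953027506641926682799636934390187237094661015387528897666603628180601557749309354775244151850532428177224692128773667933526549474503815499217306290745189049894615149771208352568294953411671140171269562098716400497122804073716801245785241963606445, 0)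

/-- A law in segment 3. -/
def mid3_2 : Nat × Nat := (25492716834934285020733281338931073431219347679032804397873999636922069618692874991304498495539614996611222264466820819332995858952588470510080922360831536035113823068046330311982175631053611513053471863624880433998692320668540352596617518269504726716102618733655899160334428445414364672533214122495783827985002884748450673135, 0)

/-- A law in segment 3. -/
def mid3_3 : Nat × Nat := (20899893422986472446229746173160079648840360445651577488510741718289551843523594090143881846588941537038833217693284626034545401959510201993127939233616660403182569029099279840495514979552848256693953409077559480091195488047660640643242596204553470951144419815861684472978654324854926528249742240509544312490190417566467087744, 0)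

/-- A law in segment 3. -/
def fin3 : Nat × Nat := (17608432402310810313948813776305623543682038934274001359830561947303771306724512768113783300381210670860096553998562310073095578360948348399539792121064971294559853969501274761081227045628833662526397706315079777553352889692946235222618421457357260042853482654035782901736454729114789263827547568400263120872601933929886416147, 0)

theorem step3_0 : pstepOk par0 nodeTab0 edgeTab0 start3.1 start3.2
    mid3_1.1 mid3_1.2 = true := by decide +kernel

theorem step3_1 : pstepOk par0 nodeTab0 edgeTab0 mid3_1.1 mid3_1.2
    mid3_2.1 mid3_2.2 = true := by decide +kernel

theorem step3_2 : pstepOk par0 nodeTab0 edgeTab0 mid3_2.1 mid3_2.2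
    mid3_3.1 mid3_3.2 = true := by decide +kernel

theorem step3_3 : pstepOk par0 nodeTab0 edgeTab0 mid3_3.1 mid3_3.2
    fin3.1 fin3.2 = true := by decide +kernel


end Vale.P154.PD.Data.Sl4
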