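import Vale.Agent.P154.Pois.DE.Data.Sl4.Tab0

/-!
# Generations 16 to 18
-/

namespace Vale.P154.PD.Data.Sl4

open Vale.P154.Lat Vale.P154.PD

/-- The start of segment 4. -/
def start4 : Nat × Nat := (17608432402310810313948813776305623543682038934274001359830561947303771306724512768113783300381210670860096553998562310073095578360948348399539792121064971294559853969501274761081227045628833662526397706315079777553352889692946235222618421457357260042853482654035782901736454729114789263827547568400263120872601933929886416147, 0)

/-- A law in segment 4. -/
def mid4_1 : Nat × Nat := (15205324896390472233281859437763143791594486355424726293165140529467642387922626906749108137408617617998764586310451223460132067980433611261520171141722540638462804388245670712687681501187860490167070825429614539079083568437200996829604798651324864173108059598239447645255951397578235171643029283842382075322981832414427948936, 0)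

/-- A law in segment 4. -/
def fin4 : Nat × Nat := (13419707022437762566401466209100545285178279415471276277382214995146785901229306659617613075111614510443726552010689588390498536887676186439543615361804892013492027549150455089792897521594860135621265038916250060320934157967809110137271861450012280975407643187852644185096020464632927266479879238199642051603439164836976057111, 0)

theorem step4_0 : pstepOk par0 nodeTab0 edgeTab0 start4.1 start4.2
    mid4_1.1 mid4_1.2 = true := by decide +kernel

theorem step4_1 : pstepOk par0 nodeTab0 edgeTab0 mid4_1.1 mid4_1.2
    fin4.1 fin4.2 = true := by decide +kernel


end Vale.P154.PD.Data.Sl4
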