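import Vale.Agent.P154.Pois.DE.Data.Sl4.Switch0
import Vale.Agent.P154.Pois.DE.Data.Sl4.Tab0
import Vale.Agent.P154.Pois.DE.Data.Sl4.Tab1

/-!
# Change of phase at generation 18
-/

namespace Vale.P154.PD.Data.Sl4

open Vale.P154.Lat Vale.P154.PD

/-- The start of segment 5. -/
def start5 : Nat × Nat := (13419707022437762566401466209100545285178279415471276277382214995146785901229306659617613075111614510443726552010689588390498536887676186439543615361804892013492027549150455089792897521594860135621265038916250060320934157967809110137271861450012280975407643187852644185096020464632927266479879238199642051603439164836976057111, 0)

/-- A law in segment 5. -/
def fin5 : Nat × Nat := (2281279668076293927116792180952159283668327853415427808582769210763330010498232650409169164911791609115614229501429712199495435512608739927989038649847297294857072264056357596009744420258749219501421508494180951567331460136305694227356742725963713336153577641428274716331261938964309853596002791037397739574666924818487742331765111771070707012804140819749097500490126762321389159036344216280880204609160614469497021508744293970531984220860690787867901189043236811806441567720801395495656977611398346102516912390002240073470597200622012096837263263101648615169135149333767871264559967230406014314790897637888917442578153375045426393950082583980877084857284826648449236338952747383420410540125138350268821788788654226767674736761594933169010737951443445567739213978191784551649575598084286364986876903953528713722181888470026056613248508452657584463207562511886788392218605011092333146380333772242562484116190215847798991626829544443201948616863798103077396568753386927599750223003465940523170939538207410278237040687391681727270896019047375041907442375447,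 0)

theorem sw5 : pswOk par0 par1 swTab0 start5.1 start5.2 fin5.1 fin5.2 = true := by
  decide +kernel

end Vale.P154.PD.Data.Sl4
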