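import Vale.Agent.P154.Pois.DE.Chain
import Vale.Agent.P154.Pois.DE.Data.Sl4.Seg0
import Vale.Agent.P154.Pois.DE.Data.Sl4.Seg1
import Vale.Agent.P154.Pois.DE.Data.Sl4.Seg2
import Vale.Agent.P154.Pois.DE.Data.Sl4.Seg3
import Vale.Agent.P154.Pois.DE.Data.Sl4.Seg4
import Vale.Agent.P154.Pois.DE.Data.Sl4.Seg5
import Vale.Agent.P154.Pois.DE.Data.Sl4.Seg6
import Vale.Agent.P154.Pois.DE.Data.Sl4.Seg7
import Vale.Agent.P154.Pois.DE.Data.Sl4.Seg8
import Vale.Agent.P154.Pois.DE.Data.Sl4.Seg9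
import Vale.Agent.P154.Pois.DE.Data.Sl4.Seg10
import Vale.Agent.P154.Pois.DE.Data.Sl4.Seg11
import Vale.Agent.P154.Pois.DE.Data.Sl4.Seg12
import Vale.Agent.P154.Pois.DE.Data.Sl4.Seg13
import Vale.Agent.P154.Pois.DE.Data.Sl4.Seg14
import Vale.Agent.P154.Pois.DE.Data.Sl4.Seg15
import Vale.Agent.P154.Pois.DE.Data.Sl4.Seg16
import Vale.Agent.P154.Pois.DE.Data.Sl4.Check0
import Vale.Agent.P154.Pois.DE.Data.Sl4.Check1

/-!
# Slice 4: mean degrees with `r = d ^ (-1/2) ≤ 4623 / 10000` and `d ≤ 5 / 1`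
-/

noncomputable section

namespace Vale.P154.PD.Data.Sl4

open Vale.P154.Lat Vale.P154.PD
open scoped ENNReal

theorem ra0 {r : ℝ} (ha : r ≤ 4623 / 10000) : r ≤ aR par0 := by
  simpa [aR, par0] using ha

theorem rD0 {r : ℝ} (hD : 1 ≤ 5 / 1 * r ^ 2) : 1 ≤ DR par0 * r ^ 2 := by
  simpa [DR, par0] using hD

theorem ra1 {r : ℝ} (ha : r ≤ 4623 / 10000) : r ≤ aR par1 := by
  simpa [aR, par1] using ha

theorem rD1 {r : ℝ} (hD : 1 ≤ 5 / 1 * r ^ 2) : 1 ≤ DR par1 * r ^ 2 := by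
  simpa [DR, par1] using hD

theorem seg0 {r : ℝ} (hr : 0 < r) (ha : r ≤ 4623 / 10000) (hD : 1 ≤ 5 / 1 * r ^ 2) (h : Inv par0 r 0 start0.1 start0.2) :
    Inv par0 r 4 fin0.1 fin0.2 :=
  inv_step par0_ok coef0_ok nodeTab0_ok edgeTab0_ok step0_3 hr
      (ra0 ha) (rD0 hD) (inv_step par0_ok coef0_ok nodeTab0_ok edgeTab0_ok step0_2 hr
      (ra0 ha) (rD0 hD) (inv_step par0_ok coef0_ok nodeTab0_ok edgeTab0_ok step0_1 hr
      (ra0 ha) (rD0 hD) (inv_step par0_ok coef0_ok nodeTab0_ok edgeTab0_ok step0_0 hr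
      (ra0 ha) (rD0 hD) h)))

theorem seg1 {r : ℝ} (hr : 0 < r) (ha : r ≤ 4623 / 10000) (hD : 1 ≤ 5 / 1 * r ^ 2) (h : Inv par0 r 4 start1.1 start1.2) :
    Inv par0 r 8 fin1.1 fin1.2 :=
  inv_step par0_ok coef0_ok nodeTab0_ok edgeTab0_ok step1_3 hr
      (ra0 ha) (rD0 hD) (inv_step par0_ok coef0_ok nodeTab0_ok edgeTab0_ok step1_2 hr
      (ra0 ha) (rD0 hD) (inv_step par0_ok coef0_ok nodeTab0_ok edgeTab0_ok step1_1 hr
      (ra0 ha) (rD0 hD) (inv_step par0_ok coef0_ok nodeTab0_ok edgeTab0_ok step1_0 hr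
      (ra0 ha) (rD0 hD) h)))

theorem seg2 {r : ℝ} (hr : 0 < r) (ha : r ≤ 4623 / 10000) (hD : 1 ≤ 5 / 1 * r ^ 2) (h : Inv par0 r 8 start2.1 start2.2) :
    Inv par0 r 12 fin2.1 fin2.2 :=
  inv_step par0_ok coef0_ok nodeTab0_ok edgeTab0_ok step2_3 hr
      (ra0 ha) (rD0 hD) (inv_step par0_ok coef0_ok nodeTab0_ok edgeTab0_ok step2_2 hr
      (ra0 ha) (rD0 hD) (inv_step par0_ok coef0_ok nodeTab0_ok edgeTab0_ok step2_1 hr
      (ra0 ha) (rD0 hD) (inv_step par0_ok coef0_ok nodeTab0_ok edgeTab0_ok step2_0 hr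
      (ra0 ha) (rD0 hD) h)))

theorem seg3 {r : ℝ} (hr : 0 < r) (ha : r ≤ 4623 / 10000) (hD : 1 ≤ 5 / 1 * r ^ 2) (h : Inv par0 r 12 start3.1 start3.2) :
    Inv par0 r 16 fin3.1 fin3.2 :=
  inv_step par0_ok coef0_ok nodeTab0_ok edgeTab0_ok step3_3 hr
      (ra0 ha) (rD0 hD) (inv_step par0_ok coef0_ok nodeTab0_ok edgeTab0_ok step3_2 hr
      (ra0 ha) (rD0 hD) (inv_step par0_ok coef0_ok nodeTab0_ok edgeTab0_ok step3_1 hr
      (ra0 ha) (rD0 hD) (inv_step par0_ok coef0_ok nodeTab0_ok edgeTab0_ok step3_0 hr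
      (ra0 ha) (rD0 hD) h)))

theorem seg4 {r : ℝ} (hr : 0 < r) (ha : r ≤ 4623 / 10000) (hD : 1 ≤ 5 / 1 * r ^ 2) (h : Inv par0 r 16 start4.1 start4.2) :
    Inv par0 r 18 fin4.1 fin4.2 :=
  inv_step par0_ok coef0_ok nodeTab0_ok edgeTab0_ok step4_1 hr
      (ra0 ha) (rD0 hD) (inv_step par0_ok coef0_ok nodeTab0_ok edgeTab0_ok step4_0 hr
      (ra0 ha) (rD0 hD) h)

theorem seg5 {r : ℝ} (hr : 0 < r) (ha : r ≤ 4623 / 10000) (hD : 1 ≤ 5 / 1 * r ^ 2) (h : Inv par0 r 18 start5.1 start5.2) :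
    Inv par1 r 18 fin5.1 fin5.2 :=
  inv_switch (pfacts par0_ok).par (pfacts par1_ok).par sw5 h

theorem seg6 {r : ℝ} (hr : 0 < r) (ha : r ≤ 4623 / 10000) (hD : 1 ≤ 5 / 1 * r ^ 2) (h : Inv par1 r 18 start6.1 start6.2) :
    Inv par1 r 22 fin6.1 fin6.2 :=
  inv_step par1_ok coef1_ok nodeTab1_ok edgeTab1_ok step6_3 hr
      (ra1 ha) (rD1 hD) (inv_step par1_ok coef1_ok nodeTab1_ok edgeTab1_ok step6_2 hr
      (ra1 ha) (rD1 hD) (inv_step par1_ok coef1_ok nodeTab1_ok edgeTab1_ok step6_1 hr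
      (ra1 ha) (rD1 hD) (inv_step par1_ok coef1_ok nodeTab1_ok edgeTab1_ok step6_0 hr
      (ra1 ha) (rD1 hD) h)))

theorem seg7 {r : ℝ} (hr : 0 < r) (ha : r ≤ 4623 / 10000) (hD : 1 ≤ 5 / 1 * r ^ 2) (h : Inv par1 r 22 start7.1 start7.2) :
    Inv par1 r 26 fin7.1 fin7.2 :=
  inv_step par1_ok coef1_ok nodeTab1_ok edgeTab1_ok step7_3 hr
      (ra1 ha) (rD1 hD) (inv_step par1_ok coef1_ok nodeTab1_ok edgeTab1_ok step7_2 hr
      (ra1 ha) (rD1 hD) (inv_step par1_ok coef1_ok nodeTab1_ok edgeTab1_ok step7_1 hr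
      (ra1 ha) (rD1 hD) (inv_step par1_ok coef1_ok nodeTab1_ok edgeTab1_ok step7_0 hr
      (ra1 ha) (rD1 hD) h)))

theorem seg8 {r : ℝ} (hr : 0 < r) (ha : r ≤ 4623 / 10000) (hD : 1 ≤ 5 / 1 * r ^ 2) (h : Inv par1 r 26 start8.1 start8.2) :
    Inv par1 r 30 fin8.1 fin8.2 :=
  inv_step par1_ok coef1_ok nodeTab1_ok edgeTab1_ok step8_3 hr
      (ra1 ha) (rD1 hD) (inv_step par1_ok coef1_ok nodeTab1_ok edgeTab1_ok step8_2 hr
      (ra1 ha) (rD1 hD) (inv_step par1_ok coef1_ok nodeTab1_ok edgeTab1_ok step8_1 hr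
      (ra1 ha) (rD1 hD) (inv_step par1_ok coef1_ok nodeTab1_ok edgeTab1_ok step8_0 hr
      (ra1 ha) (rD1 hD) h)))

theorem seg9 {r : ℝ} (hr : 0 < r) (ha : r ≤ 4623 / 10000) (hD : 1 ≤ 5 / 1 * r ^ 2) (h : Inv par1 r 30 start9.1 start9.2) :
    Inv par1 r 34 fin9.1 fin9.2 :=
  inv_step par1_ok coef1_ok nodeTab1_ok edgeTab1_ok step9_3 hr
      (ra1 ha) (rD1 hD) (inv_step par1_ok coef1_ok nodeTab1_ok edgeTab1_ok step9_2 hr
      (ra1 ha) (rD1 hD) (inv_step par1_ok coef1_ok nodeTab1_ok edgeTab1_ok step9_1 hr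
      (ra1 ha) (rD1 hD) (inv_step par1_ok coef1_ok nodeTab1_ok edgeTab1_ok step9_0 hr
      (ra1 ha) (rD1 hD) h)))

theorem seg10 {r : ℝ} (hr : 0 < r) (ha : r ≤ 4623 / 10000) (hD : 1 ≤ 5 / 1 * r ^ 2) (h : Inv par1 r 34 start10.1 start10.2) :
    Inv par1 r 38 fin10.1 fin10.2 :=
  inv_step par1_ok coef1_ok nodeTab1_ok edgeTab1_ok step10_3 hr
      (ra1 ha) (rD1 hD) (inv_step par1_ok coef1_ok nodeTab1_ok edgeTab1_ok step10_2 hr
      (ra1 ha) (rD1 hD) (inv_step par1_ok coef1_ok nodeTab1_ok edgeTab1_ok step10_1 hr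
      (ra1 ha) (rD1 hD) (inv_step par1_ok coef1_ok nodeTab1_ok edgeTab1_ok step10_0 hr
      (ra1 ha) (rD1 hD) h)))

theorem seg11 {r : ℝ} (hr : 0 < r) (ha : r ≤ 4623 / 10000) (hD : 1 ≤ 5 / 1 * r ^ 2) (h : Inv par1 r 38 start11.1 start11.2) :
    Inv par1 r 42 fin11.1 fin11.2 :=
  inv_step par1_ok coef1_ok nodeTab1_ok edgeTab1_ok step11_3 hr
      (ra1 ha) (rD1 hD) (inv_step par1_ok coef1_ok nodeTab1_ok edgeTab1_ok step11_2 hr
      (ra1 ha) (rD1 hD) (inv_step par1_ok coef1_ok nodeTab1_ok edgeTab1_ok step11_1 hr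
      (ra1 ha) (rD1 hD) (inv_step par1_ok coef1_ok nodeTab1_ok edgeTab1_ok step11_0 hr
      (ra1 ha) (rD1 hD) h)))

theorem seg12 {r : ℝ} (hr : 0 < r) (ha : r ≤ 4623 / 10000) (hD : 1 ≤ 5 / 1 * r ^ 2) (h : Inv par1 r 42 start12.1 start12.2) :
    Inv par1 r 46 fin12.1 fin12.2 :=
  inv_step par1_ok coef1_ok nodeTab1_ok edgeTab1_ok step12_3 hr
      (ra1 ha) (rD1 hD) (inv_step par1_ok coef1_ok nodeTab1_ok edgeTab1_ok step12_2 hr
      (ra1 ha) (rD1 hD) (inv_step par1_ok coef1_ok nodeTab1_ok edgeTab1_ok step12_1 hr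
      (ra1 ha) (rD1 hD) (inv_step par1_ok coef1_ok nodeTab1_ok edgeTab1_ok step12_0 hr
      (ra1 ha) (rD1 hD) h)))

theorem seg13 {r : ℝ} (hr : 0 < r) (ha : r ≤ 4623 / 10000) (hD : 1 ≤ 5 / 1 * r ^ 2) (h : Inv par1 r 46 start13.1 start13.2) :
    Inv par1 r 50 fin13.1 fin13.2 :=
  inv_step par1_ok coef1_ok nodeTab1_ok edgeTab1_ok step13_3 hr
      (ra1 ha) (rD1 hD) (inv_step par1_ok coef1_ok nodeTab1_ok edgeTab1_ok step13_2 hr
      (ra1 ha) (rD1 hD) (inv_step par1_ok coef1_ok nodeTab1_ok edgeTab1_ok step13_1 hr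
      (ra1 ha) (rD1 hD) (inv_step par1_ok coef1_ok nodeTab1_ok edgeTab1_ok step13_0 hr
      (ra1 ha) (rD1 hD) h)))

theorem seg14 {r : ℝ} (hr : 0 < r) (ha : r ≤ 4623 / 10000) (hD : 1 ≤ 5 / 1 * r ^ 2) (h : Inv par1 r 50 start14.1 start14.2) :
    Inv par1 r 54 fin14.1 fin14.2 :=
  inv_step par1_ok coef1_ok nodeTab1_ok edgeTab1_ok step14_3 hr
      (ra1 ha) (rD1 hD) (inv_step par1_ok coef1_ok nodeTab1_ok edgeTab1_ok step14_2 hr
      (ra1 ha) (rD1 hD) (inv_step par1_ok coef1_ok nodeTab1_ok edgeTab1_ok step14_1 hr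
      (ra1 ha) (rD1 hD) (inv_step par1_ok coef1_ok nodeTab1_ok edgeTab1_ok step14_0 hr
      (ra1 ha) (rD1 hD) h)))

theorem seg15 {r : ℝ} (hr : 0 < r) (ha : r ≤ 4623 / 10000) (hD : 1 ≤ 5 / 1 * r ^ 2) (h : Inv par1 r 54 start15.1 start15.2) :
    Inv par1 r 58 fin15.1 fin15.2 :=
  inv_step par1_ok coef1_ok nodeTab1_ok edgeTab1_ok step15_3 hr
      (ra1 ha) (rD1 hD) (inv_step par1_ok coef1_ok nodeTab1_ok edgeTab1_ok step15_2 hr
      (ra1 ha) (rD1 hD) (inv_step par1_ok coef1_ok nodeTab1_ok edgeTab1_ok step15_1 hr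
      (ra1 ha) (rD1 hD) (inv_step par1_ok coef1_ok nodeTab1_ok edgeTab1_ok step15_0 hr
      (ra1 ha) (rD1 hD) h)))

theorem seg16 {r : ℝ} (hr : 0 < r) (ha : r ≤ 4623 / 10000) (hD : 1 ≤ 5 / 1 * r ^ 2) (h : Inv par1 r 58 start16.1 start16.2) :
    Inv par1 r 59 fin16.1 fin16.2 :=
  inv_step par1_ok coef1_ok nodeTab1_ok edgeTab1_ok step16_0 hr
      (ra1 ha) (rD1 hD) h

/-- The slice reaches the small regime. -/
theorem small {r : ℝ} (hr : 0 < r) (ha : r ≤ 4623 / 10000) (hD : 1 ≤ 5 / 1 * r ^ 2) :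
    gwE (poisWeight (1 / r ^ 2)) 59 (fun t => ENNReal.ofReal (xTree 3 (-r) 59 t)) ≤
      ENNReal.ofReal (57 / 200) := by
  have h0 := inv_start par0_ok start_ok r
  have h1 := seg0 hr ha hD h0
  have e1 : start1 = fin0 := by decide +kernel
  rw [← e1] at h1
  have h2 := seg1 hr ha hD h1
  have e2 : start2 = fin1 := by decide +kernel
  rw [← e2] at h2
  have h3 := seg2 hr ha hD h2
  have e3 : start3 = fin2 := by decide +kernel
  rw [← e3] at h3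
  have h4 := seg3 hr ha hD h3
  have e4 : start4 = fin3 := by decide +kernel
  rw [← e4] at h4
  have h5 := seg4 hr ha hD h4
  have e5 : start5 = fin4 := by decide +kernel
  rw [← e5] at h5
  have h6 := seg5 hr ha hD h5
  have e6 : start6 = fin5 := by decide +kernel
  rw [← e6] at h6
  have h7 := seg6 hr ha hD h6
  have e7 : start7 = fin6 := by decide +kernel
  rw [← e7] at h7
  have h8 := seg7 hr ha hD h7
  have e8 : start8 = fin7 := by decide +kernel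
  rw [← e8] at h8
  have h9 := seg8 hr ha hD h8
  have e9 : start9 = fin8 := by decide +kernel
  rw [← e9] at h9
  have h10 := seg9 hr ha hD h9
  have e10 : start10 = fin9 := by decide +kernel
  rw [← e10] at h10
  have h11 := seg10 hr ha hD h10
  have e11 : start11 = fin10 := by decide +kernel
  rw [← e11] at h11
  have h12 := seg11 hr ha hD h11
  have e12 : start12 = fin11 := by decide +kernel
  rw [← e12] at h12
  have h13 := seg12 hr ha hD h12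
  have e13 : start13 = fin12 := by decide +kernel
  rw [← e13] at h13
  have h14 := seg13 hr ha hD h13
  have e14 : start14 = fin13 := by decide +kernel
  rw [← e14] at h14
  have h15 := seg14 hr ha hD h14
  have e15 : start15 = fin14 := by decide +kernel
  rw [← e15] at h15
  have h16 := seg15 hr ha hD h15
  have e16 : start16 = fin15 := by decide +kernel
  rw [← e16] at h16
  have h17 := seg16 hr ha hD h16
  refine (small_of_inv par1_ok fin_ok hr (ra1 ha) (rD1 hD) h17).trans ?_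
  exact ENNReal.ofReal_le_ofReal (by norm_num)

end Vale.P154.PD.Data.Sl4
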