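import Vale.Agent.P154.Pois.DE.Comp

/-!
# Change from phase 0
-/

namespace Vale.P154.PD.Data.Sl4

open Vale.P154.Lat Vale.P154.PD

/-- Targets of the classes of phase 0 in phase 1. -/
def swTab0 : List (List (Nat × Nat × Nat)) :=
  [[(0, 0, 1099511627776)],
    [(3, 0, 1041385772351), (6, 0, 57979070361)],
    [(5, 0, 1038501047220), (9, 0, 60861540545)],
    [(10, 0, 983114504727), (15, 0, 116120087195)],
    [(12, 0, 980391195849), (18, 0, 60692949020), (17, 0, 58140123334)],
    [(14, 0, 977675430764), (20, 0, 121555424888)],
    [(21, 0, 924696522977)],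
    [(22, 0, 922135036764), (28, 0, 60524824507), (27, 0, 116442642993)],
    [(24, 0, 919580646080), (30, 0, 121218706259), (29, 0, 58301623677)],
    [(26, 0, 917033331271), (32, 0, 182083050195)],
    [(33, 0, 861338658399), (39, 0, 120882920369), (38, 0, 116766094779)],
    [(35, 0, 858952678736), (41, 0, 181578665015), (40, 0, 58463572631)],
    [(37, 0, 856573308434), (43, 0, 242445807209)],
    [(44, 0, 798505856314), (48, 0, 241774212175), (47, 0, 58625971444)],
    [(46, 0, 796293928734), (50, 0, 302645080286)],
    [(51, 0, 738238748081), (55, 0, 301806728263), (54, 0, 58788821365)],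
    [(53, 0, 736193765399), (57, 0, 362682247434)],
    [(58, 0, 678149930025), (62, 0, 361677587469), (61, 0, 58952123646)],
    [(60, 0, 676271398363), (64, 0, 422558680353)],
    [(65, 0, 618237984821), (69, 0, 421388157693), (68, 0, 59115879545)],
    [(67, 0, 616525414226), (71, 0, 482275744475)],
    [(72, 0, 558501501787), (75, 0, 480939800584)],
    [(74, 0, 556954406214), (77, 0, 541834798996)],
    [],
    [(78, 0, 497556974141), (79, 0, 601237196924)]]

end Vale.P154.PD.Data.Sl4
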